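import Vale.Agent.P213.H992.Incl

open CategoryTheory SSet.modelCategoryQuillen Vale.Agent.P213.SX Vale.Agent.P213.H574
  Vale.Agent.P213.H992

/-- The Ara-Maltsiniotis conjecture, together with the classification of all left Bousfield
localizations of the Thomason model structures on strict `n`-categories: they correspond to the
left Bousfield localizations of the Kan-Quillen model structure. -/
theorem Vale.Agent.Results.P213.BousfieldLocalizations.result (n : ℕ∞) (hn : 1 ≤ n) :
    (∃ N : NCat n ⥤ SSet.{0}, IsStreetNerve id (fun _ _ => Fun.toFun) N) ∧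
    ∀ N : NCat n ⥤ SSet.{0}, IsStreetNerve id (fun _ _ => Fun.toFun) N →
      IsThomason N ∧
      (Set.BijOn (fun W => W.inverseImage N) (Localizations (.monomorphisms SSet.{0}) whe)
          (Localizations (thC N) (thW N)) ∧
        ∀ W ∈ Localizations (.monomorphisms SSet.{0}) whe,
          ∀ W' ∈ Localizations (.monomorphisms SSet.{0}) whe,
            W.inverseImage N ≤ W'.inverseImage N ↔ W ≤ W') ∧
      (∀ W F, IsLocalization (.monomorphisms SSet.{0}) whe W F →
        IsLocalization (thC N) (thW N) (W.inverseImage N)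
          (F.inverseImage (N ⋙ SSet.ex ⋙ SSet.ex)) ∧
        IsLeftProper (thC N) (W.inverseImage N) ∧
        (IsRightProper W F →
          IsRightProper (W.inverseImage N) (F.inverseImage (N ⋙ SSet.ex ⋙ SSet.ex))) ∧
        ∀ c (h : c ⊣ N), IsQuillenEquivalenceAt W
            ((SSet.sdExAdjunction.comp SSet.sdExAdjunction).comp h) (thC N) (W.inverseImage N) ∧
          ∀ P : MorphismProperty SSet.{0}, P.rlp = F →
            (P.map ((SSet.sd ⋙ SSet.sd) ⋙ c)).rlp = F.inverseImage (N ⋙ SSet.ex ⋙ SSet.ex)) ∧
      ∀ (m : ℕ∞) (h : n ≤ m) (M : NCat m ⥤ SSet.{0}),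
        IsStreetNerve id (fun _ _ => Fun.toFun) M →
        Set.BijOn (fun V => V.inverseImage (incl h)) (Localizations (thC M) (thW M))
            (Localizations (thC N) (thW N)) ∧
          ∀ V ∈ Localizations (thC M) (thW M), ∀ (t : NCat m ⥤ NCat n) (adj : t ⊣ incl h),
            IsQuillenEq adj (thC M) V (thC N) (V.inverseImage (incl h)) := by
  have hm := main n hn
  refine ⟨hm.1, fun N hN => ?_⟩
  have tN := hm.2 N hN
  refine ⟨tN, ⟨bijOn_loc tN, fun W hW W' hW' => le_iff_loc tN hW hW'⟩, fun W F h => ?_,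
    fun m h M hM => ?_⟩
  · refine ⟨loc_transfer tN h, loc_leftProper tN (loc_transfer tN h),
      loc_rightProper tN h, fun c hc => ⟨loc_quillen tN h hc, fun P hPF => ?_⟩⟩
    rw [← hPF]
    exact rlp_map ((SSet.sdExAdjunction.comp SSet.sdExAdjunction).comp hc) P
  · have tM := (main m (hn.trans h)).2 M hM
    exact ⟨bijOn_incl h hN hM tN tM, fun V hV t adj => quillen_incl hn h hN hM tN tM adj hV⟩
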