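import Vale.Agent.P213.Bdl.B14
import Vale.Agent.P213.H574.Main

open CategoryTheory Vale.Agent.P213.SX Vale.Agent.P213.H574

/-- The Ara-Maltsiniotis conjecture, also for all `Sd^k ⊣ Ex^k` with `k ≥ 2`; cofibrant objects
are loop-free; the inclusions of `n`-categories into `m`-categories are Quillen equivalences. -/
theorem Vale.Agent.Results.P213.ThomasonTower.result (n : ℕ∞) (hn : 1 ≤ n) :
    (∃ N : NCat n ⥤ SSet.{0}, IsStreetNerve id (fun _ _ => Fun.toFun) N) ∧
    (∀ N : NCat n ⥤ SSet.{0}, IsStreetNerve id (fun _ _ => Fun.toFun) N →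
      IsThomason N ∧
      ∀ k, 2 ≤ k → IsThomasonK N k ∧ ∀ X, IsCof (thCk N k) X → IsLoopFree X) ∧
    ∀ (m : ℕ∞) (h : n ≤ m),
      (incl h).Full ∧ (incl h).Faithful ∧ (incl h).IsRightAdjoint ∧
      ∀ (N : NCat n ⥤ SSet.{0}) (M : NCat m ⥤ SSet.{0}),
        IsStreetNerve id (fun _ _ => Fun.toFun) N →
        IsStreetNerve id (fun _ _ => Fun.toFun) M →
        thW N = (thW M).inverseImage (incl h) ∧
        (∀ k, thFk N k = (thFk M k).inverseImage (incl h)) ∧
        ∀ (t : NCat m ⥤ NCat n) (adj : t ⊣ incl h) (k l : ℕ), 2 ≤ k → k ≤ l →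
          IsQuillenEq adj (thCk M l) (thW M) (thCk N k) (thW N) := by
  have hm := main n hn
  refine ⟨hm.1, fun N hN => ⟨hm.2 N hN, fun k hk => ⟨H574M.thomasonK hn hN k hk,
    H574M.loopFree hn hN k hk⟩⟩,
    fun m h => ⟨inferInstance, inferInstance, isRightAdjoint_incl h, fun N M hN hM => ?_⟩⟩
  obtain ⟨h1, h2, -⟩ := H574M.classes_incl h hN hM
  exact ⟨h1.trans (H574M.thW_incl h M), fun k => (h2 k).trans (H574M.thFk_incl h M k),
    fun t adj k l hk hkl => H574M.quillen h hn hN hM adj k l hk hkl⟩
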